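import Mathlib

/-!
# Short Egyptian fractions: divisor-sum representations

`RepDiv M T` says that every `m ≤ M` is a sum of at most `T` distinct divisors of `M`.
This file contains the reduction of Egyptian fractions to `RepDiv` and the tower steps.
-/

namespace Vale.Agent.H3

open Finset

/-- every `m ≤ M` is a sum of at most `T` distinct divisors of `M` -/
def RepDiv (M T : ℕ) : Prop :=
  ∀ m ≤ M, ∃ D : Finset ℕ, D ⊆ M.divisors ∧ D.card ≤ T ∧ ∑ d ∈ D, d = m

theorem repDiv_one : RepDiv 1 1 := by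
  intro m hm
  interval_cases m
  · exact ⟨∅, by simp, by simp, by simp⟩
  · exact ⟨{1}, by simp, by simp, by simp⟩

theorem RepDiv.mono {M T T' : ℕ} (h : RepDiv M T) (hT : T ≤ T') : RepDiv M T' := by
  intro m hm
  obtain ⟨D, hD, hDc, hDs⟩ := h m hm
  exact ⟨D, hD, hDc.trans hT, hDs⟩

/-- the core combination step -/
theorem rep_combine {M Q T s m : ℕ} (hM : RepDiv M T) (hQ : 0 < Q) (D : Finset ℕ)
    (hD : D ⊆ M.divisors) (hDc : D.card ≤ s) (hDQ : ∀ d ∈ D, ¬ Q ∣ d) (m' : ℕ) (hm' : m' ≤ M)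
    (hm : m = ∑ d ∈ D, d + Q * m') :
    ∃ E : Finset ℕ, E ⊆ (M * Q).divisors ∧ E.card ≤ T + s ∧ ∑ d ∈ E, d = m := by
  obtain ⟨D', hD', hD'c, hD's⟩ := hM m' hm'
  have hdisj : Disjoint D (D'.image (fun d => Q * d)) := by
    rw [Finset.disjoint_left]
    intro d hd hd'
    rw [Finset.mem_image] at hd'
    obtain ⟨e, _, rfl⟩ := hd'
    exact hDQ _ hd (dvd_mul_right Q e)
  have hinj : Set.InjOn (fun d => Q * d) (D' : Set ℕ) := by
    intro x _ y _ hxy
    exact Nat.eq_of_mul_eq_mul_left hQ hxy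
  refine ⟨D ∪ D'.image (fun d => Q * d), ?_, ?_, ?_⟩
  · intro d hd
    rw [Finset.mem_union] at hd
    rcases hd with hd | hd
    · have h1 := hD hd
      rw [Nat.mem_divisors] at h1 ⊢
      exact ⟨h1.1.mul_right Q, Nat.mul_ne_zero h1.2 hQ.ne'⟩
    · rw [Finset.mem_image] at hd
      obtain ⟨e, he, rfl⟩ := hd
      have h1 := hD' he
      rw [Nat.mem_divisors] at h1 ⊢
      refine ⟨?_, Nat.mul_ne_zero h1.2 hQ.ne'⟩
      rw [mul_comm M Q]
      exact Nat.mul_dvd_mul_left Q h1.1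
  · rw [Finset.card_union_of_disjoint hdisj, Finset.card_image_of_injOn hinj]
    omega
  · rw [Finset.sum_union hdisj, Finset.sum_image hinj, ← Finset.mul_sum, hD's, hm]

/-- tower step: if residues mod `Q` are covered by sums of at most four divisors -/
theorem repDiv_mul {M Q T : ℕ} (hM : RepDiv M T) (hQ : 0 < Q)
    (hcov : ∀ r : ℕ, ∃ D : Finset ℕ, D ⊆ M.divisors ∧ D.card ≤ 4 ∧ (∀ d ∈ D, ¬ Q ∣ d) ∧
        ∑ d ∈ D, d ≤ M ∧ (∑ d ∈ D, d) % Q = r % Q) :
    RepDiv (M * Q) (T + 4) := by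
  intro m hm
  by_cases hmM : m ≤ M
  · obtain ⟨D, hD, hDc, hDs⟩ := hM m hmM
    refine ⟨D, ?_, by omega, hDs⟩
    intro d hd
    have h1 := hD hd
    rw [Nat.mem_divisors] at h1 ⊢
    exact ⟨h1.1.mul_right Q, Nat.mul_ne_zero h1.2 hQ.ne'⟩
  · have hmM' : M < m := not_le.mp hmM
    obtain ⟨D, hD, hDc, hDQ, hDle, hDmod⟩ := hcov m
    have hle : ∑ d ∈ D, d ≤ m := by omega
    have hdvd : Q ∣ m - ∑ d ∈ D, d := (Nat.modEq_iff_dvd' hle).mp hDmod
    obtain ⟨m', hm'⟩ := hdvd
    have hm'M : m' ≤ M := by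
      have h1 : Q * m' ≤ Q * M := by
        rw [← hm', mul_comm Q M]
        omega
      exact Nat.le_of_mul_le_mul_left h1 hQ
    exact rep_combine hM hQ D hD hDc hDQ m' hm'M (by omega)

/-- classical step: a factor `Q ≤ M + 1` at most doubles the number of divisors needed -/
theorem repDiv_mul_small {M Q T : ℕ} (hM : RepDiv M T) (hQ : 0 < Q) (hQM : Q ≤ M + 1) :
    RepDiv (M * Q) (T + T) := by
  intro m hm
  have hr : m % Q < Q := Nat.mod_lt _ hQ
  obtain ⟨D, hD, hDc, hDs⟩ := hM (m % Q) (by omega)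
  have hq : m / Q ≤ M := by
    apply Nat.div_le_of_le_mul
    rw [mul_comm]
    exact hm
  refine rep_combine hM hQ D hD hDc ?_ (m / Q) hq ?_
  · intro d hd hQd
    have h1 := hD hd
    rw [Nat.mem_divisors] at h1
    have hdpos : 0 < d := Nat.pos_of_dvd_of_pos h1.1 (Nat.pos_of_ne_zero h1.2)
    have hdle : d ≤ m % Q := by
      rw [← hDs]
      exact Finset.single_le_sum (f := fun x => x) (fun _ _ => Nat.zero_le _) hd
    have := Nat.le_of_dvd hdpos hQd
    omega
  · rw [hDs]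
    exact (Nat.mod_add_div m Q).symm

/-- reduction: Egyptian fractions from divisor sums -/
theorem egypt_of_repDiv {M T a b : ℕ} (hM : RepDiv M T) (ha : 0 < a) (hab : a < b)
    (hbM : b ≤ M) :
    ∃ S : Finset ℕ, (∀ n ∈ S, 2 ≤ n) ∧ S.card ≤ 2 * T ∧ ∑ n ∈ S, (1 : ℚ) / n = a / b := by
  have hMpos : 0 < M := by omega
  have hb : 0 < b := by omega
  have hqr : a * M = b * (a * M / b) + a * M % b := (Nat.div_add_mod _ _).symm
  have hrb : a * M % b < b := Nat.mod_lt _ hb
  have hqM : a * M / b < M := by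
    apply Nat.div_lt_of_lt_mul
    exact Nat.mul_lt_mul_of_pos_right hab hMpos
  obtain ⟨D1, hD1, hD1c, hD1s⟩ := hM (a * M / b) hqM.le
  obtain ⟨D2, hD2, hD2c, hD2s⟩ := hM (a * M % b) (by omega)
  have hdiv1 : ∀ d ∈ D1, d ∣ M ∧ 0 < d ∧ d < M := by
    intro d hd
    have h1 := hD1 hd
    rw [Nat.mem_divisors] at h1
    have hdle : d ≤ a * M / b := by
      rw [← hD1s]
      exact Finset.single_le_sum (f := fun x => x) (fun _ _ => Nat.zero_le _) hd
    exact ⟨h1.1, Nat.pos_of_dvd_of_pos h1.1 hMpos, by omega⟩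
  have hdiv2 : ∀ d ∈ D2, d ∣ M ∧ 0 < d ∧ d < b := by
    intro d hd
    have h1 := hD2 hd
    rw [Nat.mem_divisors] at h1
    have hdle : d ≤ a * M % b := by
      rw [← hD2s]
      exact Finset.single_le_sum (f := fun x => x) (fun _ _ => Nat.zero_le _) hd
    exact ⟨h1.1, Nat.pos_of_dvd_of_pos h1.1 hMpos, by omega⟩
  have hinj1 : Set.InjOn (fun d => M / d) (D1 : Set ℕ) := by
    intro x hx y hy hxy
    have hx' := hdiv1 x hx
    have hy' := hdiv1 y hy
    have e1 : M / (M / x) = x := Nat.div_div_self hx'.1 hMpos.ne'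
    have e2 : M / (M / y) = y := Nat.div_div_self hy'.1 hMpos.ne'
    have hxy' : M / x = M / y := hxy
    rw [← e1, ← e2, hxy']
  have hinj2 : Set.InjOn (fun d => b * (M / d)) (D2 : Set ℕ) := by
    intro x hx y hy hxy
    have hx' := hdiv2 x hx
    have hy' := hdiv2 y hy
    have hxy' : M / x = M / y := Nat.eq_of_mul_eq_mul_left hb hxy
    have e1 : M / (M / x) = x := Nat.div_div_self hx'.1 hMpos.ne'
    have e2 : M / (M / y) = y := Nat.div_div_self hy'.1 hMpos.ne'
    rw [← e1, ← e2, hxy']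
  have hdisj : Disjoint (D1.image (fun d => M / d)) (D2.image (fun d => b * (M / d))) := by
    rw [Finset.disjoint_left]
    intro n hn1 hn2
    rw [Finset.mem_image] at hn1 hn2
    obtain ⟨d, hd, rfl⟩ := hn1
    obtain ⟨e, he, heq⟩ := hn2
    have hd' := hdiv1 d hd
    have he' := hdiv2 e he
    -- M = d * (M / d) = d * b * (M / e) and M = e * (M / e)
    have h1 : d * (M / d) = M := Nat.mul_div_cancel' hd'.1
    have h2 : e * (M / e) = M := Nat.mul_div_cancel' he'.1
    have hpos : 0 < M / e := Nat.div_pos (Nat.le_of_dvd hMpos he'.1) he'.2.1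
    have h3 : d * b * (M / e) = e * (M / e) := by
      rw [h2, mul_assoc, heq, h1]
    have h4 : d * b = e := Nat.eq_of_mul_eq_mul_right hpos h3
    have h5 : b ≤ d * b := Nat.le_mul_of_pos_left b hd'.2.1
    omega
  refine ⟨D1.image (fun d => M / d) ∪ D2.image (fun d => b * (M / d)), ?_, ?_, ?_⟩
  · intro n hn
    rw [Finset.mem_union, Finset.mem_image, Finset.mem_image] at hn
    rcases hn with ⟨d, hd, rfl⟩ | ⟨d, hd, rfl⟩
    · have hd' := hdiv1 d hd
      by_contra hlt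
      have h1 : d * (M / d) = M := Nat.mul_div_cancel' hd'.1
      have h2 : M / d ≤ 1 := by omega
      have h3 : d * (M / d) ≤ d * 1 := Nat.mul_le_mul_left d h2
      omega
    · have hd' := hdiv2 d hd
      have hpos : 0 < M / d := Nat.div_pos (Nat.le_of_dvd hMpos hd'.1) hd'.2.1
      have hb2 : 2 ≤ b := by omega
      calc 2 ≤ b := hb2
        _ = b * 1 := (mul_one b).symm
        _ ≤ b * (M / d) := Nat.mul_le_mul_left b hpos
  · calc (D1.image (fun d => M / d) ∪ D2.image (fun d => b * (M / d))).card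
        ≤ (D1.image (fun d => M / d)).card + (D2.image (fun d => b * (M / d))).card :=
          Finset.card_union_le _ _
      _ ≤ D1.card + D2.card := Nat.add_le_add Finset.card_image_le Finset.card_image_le
      _ ≤ 2 * T := by omega
  · rw [Finset.sum_union hdisj, Finset.sum_image hinj1, Finset.sum_image hinj2]
    have hMq : (M : ℚ) ≠ 0 := by exact_mod_cast hMpos.ne'
    have hbq : (b : ℚ) ≠ 0 := by exact_mod_cast hb.ne'
    have s1 : ∑ d ∈ D1, (1 : ℚ) / ((M / d : ℕ) : ℚ) = ∑ d ∈ D1, (d : ℚ) / M := by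
      apply Finset.sum_congr rfl
      intro d hd
      have hd' := hdiv1 d hd
      have hdq : (d : ℚ) ≠ 0 := by exact_mod_cast hd'.2.1.ne'
      rw [Nat.cast_div hd'.1 hdq]
      field_simp
    have s2 : ∑ d ∈ D2, (1 : ℚ) / ((b * (M / d) : ℕ) : ℚ) = ∑ d ∈ D2, (d : ℚ) / (b * M) := by
      apply Finset.sum_congr rfl
      intro d hd
      have hd' := hdiv2 d hd
      have hdq : (d : ℚ) ≠ 0 := by exact_mod_cast hd'.2.1.ne'
      rw [Nat.cast_mul, Nat.cast_div hd'.1 hdq]
      field_simp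
    rw [s1, s2, ← Finset.sum_div, ← Finset.sum_div, ← Nat.cast_sum, ← Nat.cast_sum, hD1s, hD2s]
    have hqr' : (a : ℚ) * M = b * ((a * M / b : ℕ) : ℚ) + ((a * M % b : ℕ) : ℚ) := by
      exact_mod_cast hqr
    field_simp
    linarith

end Vale.Agent.H3
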