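import Mathlib
import Vale.Agent.H97.EgyCover
import Vale.Agent.H22.EgyPotential
import Vale.Agent.H79.EgyPrimes
import Vale.Agent.H80.EgyEndgame

/-! The leaf lemmas of the P012 development, proved by helper97 (with helper74, helper43,
helper82), helper22, helper79 and helper80; restated here in one namespace. -/

namespace Vale.Agent.H3

open Finset

theorem fourier_cover (L : Finset ℕ) (hL : ∀ p ∈ L, p.Prime) (Z c : ℕ) (hZ : ∀ p ∈ L, p ≤ Z)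
    (A : Finset ℕ) (hA : A.Nonempty) (g : Fin 4 → ℕ) (hg : ∀ i, ∀ p ∈ L, ¬ p ∣ g i)
    (hc : 1 ≤ c) (hcA : c ^ L.card ≤ A.card)
    (hen : ∀ T ⊆ L, c ^ T.card *
      ((A.offDiag).filter (fun x => ∀ p ∈ T, (p : ℤ) ∣ (x.1 : ℤ) - (x.2 : ℤ))).card
        ≤ 2 * A.card ^ 2)
    (hsmall : 1000 * L.card * Z ^ 3 < c ^ 4) (r : ℤ) :
    ∃ a b : Fin 4 → ℕ, (∀ i, a i ∈ A) ∧ (∀ i, b i ∈ A) ∧
      ((∏ p ∈ L, p : ℕ) : ℤ) ∣ r - ((∑ i, g i * a i * b i : ℕ) : ℤ) :=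
  Vale.Agent.H97.fourier_cover L hL Z c hZ A hA g hg hc hcA hen hsmall r

theorem exists_prime_block {ι : Type*} (I : Finset ι) (n : ι → ℤ) (PP : Finset ℕ) (k c l : ℕ)
    (hl : ∀ i ∈ I, (PP.filter (fun p : ℕ => (p : ℤ) ∣ n i)).card ≤ l)
    (hcard : 2 * k * c * l + k ≤ PP.card) :
    ∃ L ⊆ PP, L.card = k ∧
      ∑ i ∈ I, ∏ p ∈ L, (if (p : ℤ) ∣ n i then c + 1 else 1) ≤ 2 * I.card :=
  Vale.Agent.H22.exists_prime_block I n PP k c l hl hcard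

theorem card_primes_Ioc (v : ℕ) (hv : 5 ≤ v) :
    2 ^ (2 * v) ≤ 2 * v * (((Finset.Ioc (2 ^ v) (2 ^ (2 * v))).filter Nat.Prime).card + 2 ^ v + 2) :=
  Vale.Agent.H79.card_primes_Ioc v hv

theorem endgame (K : ℕ) : ∃ C : ℝ, ∀ b : ℕ, 2 ≤ b →
    (K : ℝ) * ((10 : ℝ) + (Nat.clog 2 (Nat.clog 2 b) : ℝ)) ^ 2 ≤ C * (Real.log (Real.log b)) ^ 2 :=
  Vale.Agent.H80.endgame K

end Vale.Agent.H3
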