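import Mathlib
import Vale.Agent.H3.EgyDefs
import Vale.Agent.H3.EgyLeaves

/-! # One stage of the tower: adding a block of `k` primes twice -/

namespace Vale.Agent.H3

open Finset

theorem card_primes_dvd_le {S : Finset ℕ} (hS : ∀ p ∈ S, p.Prime) {v w n : ℕ} (hv : 0 < v)
    (hgt : ∀ p ∈ S, 2 ^ v < p) (hdvd : ∀ p ∈ S, p ∣ n) (hn : 0 < n)
    (hle : n ≤ (2 ^ (2 * v)) ^ w) : S.card ≤ 2 * w := by
  have h1 : ∏ p ∈ S, p ∣ n := Finset.prod_primes_dvd n (fun p hp => (hS p hp).prime) hdvd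
  have h2 : ∏ p ∈ S, p ≤ n := Nat.le_of_dvd hn h1
  have h3 : (2 ^ v) ^ S.card ≤ ∏ p ∈ S, p :=
    Finset.pow_card_le_prod S (fun p => p) (2 ^ v) (fun p hp => (hgt p hp).le)
  have h4 : 2 ^ (v * S.card) ≤ 2 ^ (2 * v * w) := by
    calc 2 ^ (v * S.card) = (2 ^ v) ^ S.card := pow_mul 2 v S.card
      _ ≤ n := h3.trans h2
      _ ≤ (2 ^ (2 * v)) ^ w := hle
      _ = 2 ^ (2 * v * w) := (pow_mul 2 (2 * v) w).symm
  have h5 : v * S.card ≤ 2 * v * w := (Nat.pow_le_pow_iff_right (by norm_num)).mp h4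
  have h6 : v * S.card ≤ v * (2 * w) := by
    calc v * S.card ≤ 2 * v * w := h5
      _ = v * (2 * w) := by ring
  exact Nat.le_of_mul_le_mul_left h6 hv

theorem card_divisors_mul_prod_primes (N : ℕ) (L : Finset ℕ) (hL : ∀ p ∈ L, p.Prime)
    (hN : ∀ p ∈ L, ¬ p ∣ N) :
    (N * ∏ p ∈ L, p).divisors.card = N.divisors.card * 2 ^ L.card := by
  classical
  induction L using Finset.induction_on with
  | empty => simp
  | insert q L hq ih =>
    have hqp : q.Prime := hL q (Finset.mem_insert_self q L)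
    have ih' := ih (fun p hp => hL p (Finset.mem_insert_of_mem hp))
      (fun p hp => hN p (Finset.mem_insert_of_mem hp))
    rw [Finset.prod_insert hq, Finset.card_insert_of_notMem hq]
    have hcop : Nat.Coprime q (N * ∏ p ∈ L, p) := by
      apply Nat.Coprime.mul_right
      · exact (Nat.Prime.coprime_iff_not_dvd hqp).mpr (hN q (Finset.mem_insert_self q L))
      · apply Nat.Coprime.prod_right
        intro p hp
        have hpp : p.Prime := hL p (Finset.mem_insert_of_mem hp)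
        rw [Nat.coprime_primes hqp hpp]
        rintro rfl
        exact hq hp
    have e : N * (q * ∏ p ∈ L, p) = q * (N * ∏ p ∈ L, p) := by ring
    rw [e, Nat.Coprime.card_divisors_mul hcop, ih', Nat.Prime.divisors hqp,
      Finset.card_pair hqp.one_lt.ne]
    ring

theorem stage {M N T w k c v : ℕ}
    (h1 : RepDiv M T) (hMpos : 0 < M) (h2 : 210 * N ^ 2 ∣ M) (h3 : Nat.Coprime N 210)
    (h4 : 2 ^ w ≤ N.divisors.card) (h5 : N ≤ (2 ^ (2 * v)) ^ w)
    (hv : 5 ≤ v) (hk : 1 ≤ k) (hc : 1 ≤ c) (hck : c ^ k ≤ 2 ^ w)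
    (hsmall : 1000 * k * (2 ^ (2 * v)) ^ 3 < c ^ 4)
    (hsupply : 2 * v * (4 * k * c * w + k + 2 * w + 2 ^ v + 2) ≤ 2 ^ (2 * v)) :
    ∃ M' N', RepDiv M' (T + 8) ∧ 0 < M' ∧ 210 * N' ^ 2 ∣ M' ∧ Nat.Coprime N' 210 ∧
      2 ^ (w + k) ≤ N'.divisors.card ∧ N' ≤ (2 ^ (2 * v)) ^ (w + k) := by
  have hNpos : 0 < N := by
    rcases Nat.eq_zero_or_pos N with h0 | h0
    · subst h0
      simp at h3
    · exact h0
  have hvpos : 0 < v := by omega
  have h8 : 8 ≤ 2 ^ v := by
    calc 8 = 2 ^ 3 := by norm_num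
      _ ≤ 2 ^ v := Nat.pow_le_pow_right (by norm_num) (by omega)
  -- the pool of primes
  set W := (Finset.Ioc (2 ^ v) (2 ^ (2 * v))).filter Nat.Prime with hW
  set PP := W.filter (fun p => ¬ p ∣ N) with hPP
  have hWprime : ∀ p ∈ W, p.Prime := fun p hp => (Finset.mem_filter.mp hp).2
  have hWgt : ∀ p ∈ W, 2 ^ v < p := fun p hp =>
    (Finset.mem_Ioc.mp (Finset.mem_filter.mp hp).1).1
  have hWle : ∀ p ∈ W, p ≤ 2 ^ (2 * v) := fun p hp =>
    (Finset.mem_Ioc.mp (Finset.mem_filter.mp hp).1).2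
  have hPPW : ∀ p ∈ PP, p ∈ W := fun p hp => (Finset.mem_filter.mp hp).1
  have hPPN : ∀ p ∈ PP, ¬ p ∣ N := fun p hp => (Finset.mem_filter.mp hp).2
  have hcard : 2 * k * c * (2 * w) + k ≤ PP.card := by
    have hbad : (W.filter (fun p => p ∣ N)).card ≤ 2 * w :=
      card_primes_dvd_le (fun p hp => hWprime p (Finset.mem_filter.mp hp).1) hvpos
        (fun p hp => hWgt p (Finset.mem_filter.mp hp).1)
        (fun p hp => (Finset.mem_filter.mp hp).2) hNpos h5
    have hsplit : (W.filter (fun p => p ∣ N)).card + PP.card = W.card :=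
      Finset.card_filter_add_card_filter_not (fun p => p ∣ N)
    have hsup : 2 ^ (2 * v) ≤ 2 * v * (W.card + 2 ^ v + 2) := card_primes_Ioc v hv
    by_contra hlt
    have hlt' : PP.card < 2 * k * c * (2 * w) + k := not_le.mp hlt
    have e1 : W.card + 2 ^ v + 2 < 4 * k * c * w + k + 2 * w + 2 ^ v + 2 := by
      have : 2 * k * c * (2 * w) = 4 * k * c * w := by ring
      omega
    have e2 : 2 * v * (W.card + 2 ^ v + 2) < 2 * v * (4 * k * c * w + k + 2 * w + 2 ^ v + 2) :=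
      Nat.mul_lt_mul_of_pos_left e1 (by omega)
    omega
  -- the set of divisors
  set A := N.divisors with hA
  have hAmem : ∀ a ∈ A, a ∣ N ∧ 0 < a ∧ a ≤ N := by
    intro a ha
    have h := Nat.mem_divisors.mp ha
    exact ⟨h.1, Nat.pos_of_dvd_of_pos h.1 hNpos, Nat.le_of_dvd hNpos h.1⟩
  have hAne : A.Nonempty := ⟨1, Nat.mem_divisors.mpr ⟨one_dvd N, hNpos.ne'⟩⟩
  -- choose the block
  obtain ⟨L, hLsub, hLcard, hpot⟩ := exists_prime_block A.offDiag
    (fun x => (x.1 : ℤ) - (x.2 : ℤ)) PP k c (2 * w) (by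
      intro x hx
      rw [Finset.mem_offDiag] at hx
      obtain ⟨hx1, hx2, hne⟩ := hx
      have b1 := hAmem x.1 hx1
      have b2 := hAmem x.2 hx2
      have hnat : 0 < ((x.1 : ℤ) - (x.2 : ℤ)).natAbs := by
        apply Int.natAbs_pos.mpr
        intro h0
        apply hne
        have : (x.1 : ℤ) = (x.2 : ℤ) := by linarith
        exact_mod_cast this
      have hnatle : ((x.1 : ℤ) - (x.2 : ℤ)).natAbs ≤ N := by omega
      exact card_primes_dvd_le
        (fun p hp => hWprime p (hPPW p (Finset.mem_filter.mp hp).1)) hvpos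
        (fun p hp => hWgt p (hPPW p (Finset.mem_filter.mp hp).1))
        (fun p hp => Int.natCast_dvd.mp (Finset.mem_filter.mp hp).2) hnat (hnatle.trans h5))
    hcard
  have hLprime : ∀ p ∈ L, p.Prime := fun p hp => hWprime p (hPPW p (hLsub hp))
  have hLgt : ∀ p ∈ L, 2 ^ v < p := fun p hp => hWgt p (hPPW p (hLsub hp))
  have hLle : ∀ p ∈ L, p ≤ 2 ^ (2 * v) := fun p hp => hWle p (hPPW p (hLsub hp))
  have hLN : ∀ p ∈ L, ¬ p ∣ N := fun p hp => hPPN p (hLsub hp)
  -- the markers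
  let g : Fin 4 → ℕ := ![2, 3, 5, 7]
  have hgpos : ∀ i, 0 < g i ∧ g i ≤ 7 := by decide
  have hg210 : ∀ i, g i ∣ 210 := by decide
  have hggcd : ∀ i, Nat.gcd (g i) 210 = g i := by decide
  have hginj : ∀ i j, g i = g j → i = j := by decide
  have hgsum : ∑ i, g i = 17 := by decide
  have hgL : ∀ i, ∀ p ∈ L, ¬ p ∣ g i := by
    intro i p hp hdvd
    have := Nat.le_of_dvd (hgpos i).1 hdvd
    have := hLgt p hp
    have := (hgpos i).2
    omega
  -- energy hypothesis
  have hen : ∀ T ⊆ L, c ^ T.card *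
      ((A.offDiag).filter (fun x => ∀ p ∈ T, (p : ℤ) ∣ (x.1 : ℤ) - (x.2 : ℤ))).card
        ≤ 2 * A.card ^ 2 := by
    intro T hT
    have hoff : A.offDiag.card ≤ A.card ^ 2 := by
      rw [Finset.offDiag_card, sq]
      exact Nat.sub_le _ _
    calc c ^ T.card *
          ((A.offDiag).filter (fun x => ∀ p ∈ T, (p : ℤ) ∣ (x.1 : ℤ) - (x.2 : ℤ))).card
        = ∑ _x ∈ (A.offDiag).filter (fun x => ∀ p ∈ T, (p : ℤ) ∣ (x.1 : ℤ) - (x.2 : ℤ)),
            c ^ T.card := by
          rw [Finset.sum_const, smul_eq_mul, mul_comm]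
      _ ≤ ∑ x ∈ (A.offDiag).filter (fun x => ∀ p ∈ T, (p : ℤ) ∣ (x.1 : ℤ) - (x.2 : ℤ)),
            ∏ p ∈ L, (if (p : ℤ) ∣ (x.1 : ℤ) - (x.2 : ℤ) then c + 1 else 1) := by
          apply Finset.sum_le_sum
          intro x hx
          have hx' := (Finset.mem_filter.mp hx).2
          calc c ^ T.card ≤ (c + 1) ^ T.card := Nat.pow_le_pow_left (Nat.le_succ c) _
            _ = ∏ p ∈ T, (c + 1) := by rw [Finset.prod_const]
            _ = ∏ p ∈ T, (if (p : ℤ) ∣ (x.1 : ℤ) - (x.2 : ℤ) then c + 1 else 1) := by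
                apply Finset.prod_congr rfl
                intro p hp
                rw [if_pos (hx' p hp)]
            _ ≤ ∏ p ∈ L, (if (p : ℤ) ∣ (x.1 : ℤ) - (x.2 : ℤ) then c + 1 else 1) := by
                apply Finset.prod_le_prod_of_subset_of_one_le' hT
                intro p _ _
                split_ifs <;> omega
      _ ≤ ∑ x ∈ A.offDiag,
            ∏ p ∈ L, (if (p : ℤ) ∣ (x.1 : ℤ) - (x.2 : ℤ) then c + 1 else 1) :=
          Finset.sum_le_sum_of_subset (Finset.filter_subset _ _)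
      _ ≤ 2 * A.offDiag.card := hpot
      _ ≤ 2 * A.card ^ 2 := Nat.mul_le_mul_left 2 hoff
  have hcA : c ^ L.card ≤ A.card := by
    rw [hLcard]
    exact hck.trans h4
  have hsmall' : 1000 * L.card * (2 ^ (2 * v)) ^ 3 < c ^ 4 := by
    rw [hLcard]
    exact hsmall
  have cover := fourier_cover L hLprime (2 ^ (2 * v)) c hLle A hAne g hgL hc hcA hen hsmall'
  -- the modulus
  set Q := ∏ p ∈ L, p with hQ
  have hLne : L.Nonempty := by
    rw [← Finset.card_pos, hLcard]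
    exact hk
  obtain ⟨p0, hp0⟩ := hLne
  have hp0Q : p0 ∣ Q := Finset.dvd_prod_of_mem (fun p => p) hp0
  have hQpos : 0 < Q := Finset.prod_pos (fun p hp => (hLprime p hp).pos)
  have hQN : Nat.Coprime Q N := by
    apply Nat.Coprime.prod_left
    intro p hp
    exact (Nat.Prime.coprime_iff_not_dvd (hLprime p hp)).mpr (hLN p hp)
  have hQ210 : Nat.Coprime Q 210 := by
    apply Nat.Coprime.prod_left
    intro p hp
    have hpp := hLprime p hp
    have hgt := hLgt p hp
    have e : (210 : ℕ) = 2 * (3 * (5 * 7)) := by norm_num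
    rw [e]
    refine Nat.Coprime.mul_right ?_ (Nat.Coprime.mul_right ?_ (Nat.Coprime.mul_right ?_ ?_))
    · exact (Nat.coprime_primes hpp Nat.prime_two).mpr (by omega)
    · exact (Nat.coprime_primes hpp Nat.prime_three).mpr (by omega)
    · exact (Nat.coprime_primes hpp Nat.prime_five).mpr (by omega)
    · exact (Nat.coprime_primes hpp (by norm_num)).mpr (by omega)
  -- covering statement for the tower step
  have hcovM : ∀ M' : ℕ, 0 < M' → 210 * N ^ 2 ∣ M' →
      ∀ r : ℕ, ∃ D : Finset ℕ, D ⊆ M'.divisors ∧ D.card ≤ 4 ∧ (∀ d ∈ D, ¬ Q ∣ d) ∧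
        ∑ d ∈ D, d ≤ M' ∧ (∑ d ∈ D, d) % Q = r % Q := by
    intro M' hM'pos hM'dvd r
    obtain ⟨a, b, ha, hb, hdvd⟩ := cover (r : ℤ)
    set f : Fin 4 → ℕ := fun i => g i * a i * b i with hf
    have hfgcd : ∀ i, Nat.gcd (f i) 210 = g i := by
      intro i
      have hcop : Nat.Coprime (a i * b i) 210 :=
        Nat.Coprime.mul_left (Nat.Coprime.coprime_dvd_left (hAmem _ (ha i)).1 h3)
          (Nat.Coprime.coprime_dvd_left (hAmem _ (hb i)).1 h3)
      have e : f i = g i * (a i * b i) := by simp only [hf]; ring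
      rw [e, Nat.Coprime.gcd_mul_right_cancel (g i) hcop]
      exact hggcd i
    have hfinj : Function.Injective f := by
      intro i j hij
      apply hginj
      rw [← hfgcd i, ← hfgcd j, hij]
    have hfdvd : ∀ i, f i ∣ 210 * N ^ 2 := by
      intro i
      have e : 210 * N ^ 2 = 210 * N * N := by ring
      rw [e]
      exact Nat.mul_dvd_mul (Nat.mul_dvd_mul (hg210 i) (hAmem _ (ha i)).1) (hAmem _ (hb i)).1
    have hfle : ∀ i, f i ≤ g i * (N * N) := by
      intro i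
      have e : f i = g i * (a i * b i) := by simp only [hf]; ring
      rw [e]
      exact Nat.mul_le_mul_left _ (Nat.mul_le_mul (hAmem _ (ha i)).2.2 (hAmem _ (hb i)).2.2)
    have hsumD : ∑ d ∈ Finset.univ.image f, d = ∑ i, f i :=
      Finset.sum_image (fun i _ j _ hij => hfinj hij)
    refine ⟨Finset.univ.image f, ?_, ?_, ?_, ?_, ?_⟩
    · intro d hd
      obtain ⟨i, _, rfl⟩ := Finset.mem_image.mp hd
      exact Nat.mem_divisors.mpr ⟨(hfdvd i).trans hM'dvd, hM'pos.ne'⟩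
    · calc (Finset.univ.image f).card ≤ (Finset.univ : Finset (Fin 4)).card :=
            Finset.card_image_le
        _ = 4 := by simp
    · intro d hd hQd
      obtain ⟨i, _, rfl⟩ := Finset.mem_image.mp hd
      have hp0f : p0 ∣ g i * a i * b i := hp0Q.trans hQd
      have hp0p := hLprime p0 hp0
      rcases (Nat.Prime.dvd_mul hp0p).mp hp0f with h | h
      · rcases (Nat.Prime.dvd_mul hp0p).mp h with h' | h'
        · exact hgL i p0 hp0 h'
        · exact hLN p0 hp0 (h'.trans (hAmem _ (ha i)).1)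
      · exact hLN p0 hp0 (h.trans (hAmem _ (hb i)).1)
    · rw [hsumD]
      calc ∑ i, f i ≤ ∑ i, g i * (N * N) := Finset.sum_le_sum (fun i _ => hfle i)
        _ = 17 * (N * N) := by rw [← Finset.sum_mul, hgsum]
        _ ≤ 210 * N ^ 2 := by nlinarith
        _ ≤ M' := Nat.le_of_dvd hM'pos hM'dvd
    · rw [hsumD]
      exact (Nat.modEq_iff_dvd.mpr hdvd)
  have s1 : RepDiv (M * Q) (T + 4) := repDiv_mul h1 hQpos (hcovM M hMpos h2)
  have s2 : RepDiv (M * Q * Q) (T + 4 + 4) :=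
    repDiv_mul s1 hQpos (hcovM (M * Q) (Nat.mul_pos hMpos hQpos) (h2.mul_right Q))
  refine ⟨M * Q * Q, N * Q, s2, Nat.mul_pos (Nat.mul_pos hMpos hQpos) hQpos, ?_, ?_, ?_, ?_⟩
  · have e : 210 * (N * Q) ^ 2 = 210 * N ^ 2 * Q * Q := by ring
    rw [e]
    exact Nat.mul_dvd_mul (Nat.mul_dvd_mul h2 (dvd_refl Q)) (dvd_refl Q)
  · exact Nat.Coprime.mul_left h3 hQ210
  · rw [hQ, card_divisors_mul_prod_primes N L hLprime hLN, hLcard, pow_add]
    exact Nat.mul_le_mul_right _ h4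
  · have hQle : Q ≤ (2 ^ (2 * v)) ^ k := by
      rw [← hLcard]
      exact Finset.prod_le_pow_card L (fun p => p) (2 ^ (2 * v)) hLle
    rw [pow_add]
    exact Nat.mul_le_mul h5 hQle

end Vale.Agent.H3
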