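import Mathlib
import Vale.Agent.H3.EgyStage

/-! # The tower: epochs, base case and the final bound -/

namespace Vale.Agent.H3

open Finset

/-- the state of the tower: a modulus `M` with `RepDiv M T` containing `210 * N ^ 2`, where
`N` has at least `2 ^ w` divisors and is at most `(2 ^ (2 * v)) ^ w` -/
def TowerState (w v T : ℕ) : Prop :=
  ∃ M N : ℕ, RepDiv M T ∧ 0 < M ∧ 210 * N ^ 2 ∣ M ∧ Nat.Coprime N 210 ∧
    2 ^ w ≤ N.divisors.card ∧ N ≤ (2 ^ (2 * v)) ^ w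

theorem TowerState.mono_v {w v v' T : ℕ} (h : TowerState w v T) (hv : v ≤ v') :
    TowerState w v' T := by
  obtain ⟨M, N, h1, h2, h3, h4, h5, h6⟩ := h
  refine ⟨M, N, h1, h2, h3, h4, h5, h6.trans ?_⟩
  exact Nat.pow_le_pow_left (Nat.pow_le_pow_right (by norm_num) (by omega)) w

theorem TowerState.step {w v T k c : ℕ} (h : TowerState w v T) (hv : 5 ≤ v) (hk : 1 ≤ k)
    (hc : 1 ≤ c) (hck : c ^ k ≤ 2 ^ w)
    (hsmall : 1000 * k * (2 ^ (2 * v)) ^ 3 < c ^ 4)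
    (hsupply : 2 * v * (4 * k * c * w + k + 2 * w + 2 ^ v + 2) ≤ 2 ^ (2 * v)) :
    TowerState (w + k) v (T + 8) := by
  obtain ⟨M, N, h1, h2, h3, h4, h5, h6⟩ := h
  exact stage h1 h2 h3 h4 h5 h6 hv hk hc hck hsmall hsupply

theorem num_small {j k : ℕ} (hj : 2 ≤ j) (hk : k ≤ 2 ^ j) :
    1000 * k * (2 ^ (2 * (32 * j))) ^ 3 < (2 ^ (50 * j)) ^ 4 := by
  have e1 : (2 ^ (2 * (32 * j))) ^ 3 = 2 ^ (192 * j) := by
    rw [← pow_mul]
    congr 1
    ring
  have e2 : (2 ^ (50 * j)) ^ 4 = 2 ^ (200 * j) := by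
    rw [← pow_mul]
    congr 1
    ring
  rw [e1, e2]
  have hpos : 0 < 2 ^ (192 * j) := Nat.pos_of_ne_zero (by positivity)
  have hposj : 0 < 2 ^ j := Nat.pos_of_ne_zero (by positivity)
  calc 1000 * k * 2 ^ (192 * j) ≤ 1000 * 2 ^ j * 2 ^ (192 * j) :=
        Nat.mul_le_mul_right _ (Nat.mul_le_mul_left _ hk)
    _ < 2 ^ 10 * 2 ^ j * 2 ^ (192 * j) := by
        apply Nat.mul_lt_mul_of_pos_right _ hpos
        exact Nat.mul_lt_mul_of_pos_right (by norm_num) hposj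
    _ = 2 ^ (10 + j + 192 * j) := by rw [pow_add, pow_add]
    _ ≤ 2 ^ (200 * j) := Nat.pow_le_pow_right (by norm_num) (by omega)

theorem num_supply {j k w : ℕ} (hj : 2 ≤ j) (hk : k ≤ 2 ^ j) (hw : w ≤ 2 ^ (j + 1)) :
    2 * (32 * j) * (4 * k * 2 ^ (50 * j) * w + k + 2 * w + 2 ^ (32 * j) + 2)
      ≤ 2 ^ (2 * (32 * j)) := by
  have hB : ∀ e, e ≤ 52 * j + 3 → 2 ^ e ≤ 2 ^ (52 * j + 3) :=
    fun e he => Nat.pow_le_pow_right (by norm_num) he
  have t1 : 4 * k * 2 ^ (50 * j) * w ≤ 2 ^ (52 * j + 3) := by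
    calc 4 * k * 2 ^ (50 * j) * w ≤ 4 * 2 ^ j * 2 ^ (50 * j) * 2 ^ (j + 1) :=
          Nat.mul_le_mul (Nat.mul_le_mul_right _ (Nat.mul_le_mul_left _ hk)) hw
      _ = 2 ^ (52 * j + 3) := by
          have h4 : (4 : ℕ) = 2 ^ 2 := by norm_num
          rw [h4, ← pow_add, ← pow_add, ← pow_add]
          congr 1
          ring
  have t2 : k ≤ 2 ^ (52 * j + 3) := hk.trans (hB j (by omega))
  have t3 : 2 * w ≤ 2 ^ (52 * j + 3) := by
    calc 2 * w ≤ 2 * 2 ^ (j + 1) := Nat.mul_le_mul_left _ hw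
      _ = 2 ^ (j + 2) := by ring
      _ ≤ _ := hB _ (by omega)
  have t4 : 2 ^ (32 * j) ≤ 2 ^ (52 * j + 3) := hB _ (by omega)
  have t5 : 2 ≤ 2 ^ (52 * j + 3) := by
    calc 2 = 2 ^ 1 := by norm_num
      _ ≤ _ := hB _ (by omega)
  have hsum : 4 * k * 2 ^ (50 * j) * w + k + 2 * w + 2 ^ (32 * j) + 2 ≤ 2 ^ (52 * j + 6) := by
    have e : 2 ^ (52 * j + 6) = 8 * 2 ^ (52 * j + 3) := by
      rw [show 52 * j + 6 = (52 * j + 3) + 3 by ring, pow_add]
      ring
    omega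
  have hj2 : 2 * (32 * j) ≤ 2 ^ (j + 6) := by
    have hlt : j < 2 ^ j := Nat.lt_two_pow_self
    calc 2 * (32 * j) = 64 * j := by ring
      _ ≤ 64 * 2 ^ j := by omega
      _ = 2 ^ (j + 6) := by
          rw [pow_add]
          ring
  calc 2 * (32 * j) * (4 * k * 2 ^ (50 * j) * w + k + 2 * w + 2 ^ (32 * j) + 2)
      ≤ 2 ^ (j + 6) * 2 ^ (52 * j + 6) := Nat.mul_le_mul hj2 hsum
    _ = 2 ^ (53 * j + 12) := by
        rw [← pow_add]
        congr 1
        ring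
    _ ≤ 2 ^ (2 * (32 * j)) := Nat.pow_le_pow_right (by norm_num) (by omega)

theorem fifty_mul_le {j : ℕ} (hj : 9 ≤ j) : 50 * j ≤ 2 ^ j := by
  induction j, hj using Nat.le_induction with
  | base => norm_num
  | succ j hj ih =>
    rw [pow_succ]
    omega

/-- one epoch: the exponent `w` doubles at cost `8 * 2 ^ clog (50 j)` -/
theorem epoch {j T : ℕ} (hj : 9 ≤ j) (h : TowerState (2 ^ j) (32 * j) T) :
    TowerState (2 ^ (j + 1)) (32 * (j + 1)) (T + 8 * 2 ^ Nat.clog 2 (50 * j)) := by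
  set s := Nat.clog 2 (50 * j) with hs
  have h50 : 50 * j ≤ 2 ^ j := fifty_mul_le hj
  have hsj : s ≤ j := Nat.clog_le_of_le_pow h50
  have hGs : 50 * j ≤ 2 ^ s := Nat.le_pow_clog (by norm_num) _
  set k := 2 ^ (j - s) with hk
  have hkpos : 1 ≤ k := Nat.one_le_two_pow
  have hGk : 2 ^ s * k = 2 ^ j := by
    rw [hk, ← pow_add]
    congr 1
    omega
  have hkle : k ≤ 2 ^ j := by
    rw [hk]
    exact Nat.pow_le_pow_right (by norm_num) (by omega)
  have key : ∀ i, i ≤ 2 ^ s → TowerState (2 ^ j + i * k) (32 * j) (T + 8 * i) := by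
    intro i
    induction i with
    | zero =>
      intro _
      simpa using h
    | succ i ih =>
      intro hi
      have ih' := ih (by omega)
      have hw : 2 ^ j + i * k ≤ 2 ^ (j + 1) := by
        have h1 : i * k ≤ 2 ^ s * k := Nat.mul_le_mul_right k (by omega)
        rw [pow_succ]
        omega
      have hck : (2 ^ (50 * j)) ^ k ≤ 2 ^ (2 ^ j + i * k) := by
        rw [← pow_mul]
        apply Nat.pow_le_pow_right (by norm_num)
        calc 50 * j * k ≤ 2 ^ s * k := Nat.mul_le_mul_right k hGs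
          _ = 2 ^ j := hGk
          _ ≤ 2 ^ j + i * k := Nat.le_add_right _ _
      have hstep := ih'.step (k := k) (c := 2 ^ (50 * j)) (by omega) hkpos Nat.one_le_two_pow
        hck (num_small (by omega) hkle) (num_supply (by omega) hkle hw)
      have e1 : 2 ^ j + (i + 1) * k = 2 ^ j + i * k + k := by ring
      have e2 : T + 8 * (i + 1) = T + 8 * i + 8 := by ring
      rw [e1, e2]
      exact hstep
  have hfin := key (2 ^ s) le_rfl
  rw [hGk] at hfin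
  have e : 2 ^ j + 2 ^ j = 2 ^ (j + 1) := by
    rw [pow_succ]
    ring
  rw [e] at hfin
  exact hfin.mono_v (by omega)

theorem repDiv_two_pow (e : ℕ) : RepDiv (2 ^ e) (2 ^ e) := by
  induction e with
  | zero => simpa using repDiv_one
  | succ e ih =>
    have h1 : (2 : ℕ) ≤ 2 ^ e + 1 := by
      have := Nat.one_le_two_pow (n := e)
      omega
    have h2 := repDiv_mul_small ih (Q := 2) (by norm_num) h1
    have e1 : 2 ^ (e + 1) = 2 ^ e * 2 := pow_succ 2 e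
    rw [e1]
    exact h2.mono (by omega)

theorem base_general {v w : ℕ} (hv : 5 ≤ v) (hnum : 2 * v * (w + 2 ^ v + 2) < 2 ^ (2 * v)) :
    ∃ T0, TowerState w v T0 := by
  set W := (Finset.Ioc (2 ^ v) (2 ^ (2 * v))).filter Nat.Prime with hW
  have hsup : 2 ^ (2 * v) ≤ 2 * v * (W.card + 2 ^ v + 2) := card_primes_Ioc v hv
  have hWcard : w ≤ W.card := by
    by_contra hlt
    have hlt' : W.card ≤ w := (not_le.mp hlt).le
    have h1 : 2 * v * (W.card + 2 ^ v + 2) ≤ 2 * v * (w + 2 ^ v + 2) :=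
      Nat.mul_le_mul_left _ (by omega)
    exact absurd (hsup.trans h1) (not_le.mpr hnum)
  obtain ⟨L, hLW, hLcard⟩ := Finset.exists_subset_card_eq hWcard
  have hLprime : ∀ p ∈ L, p.Prime := fun p hp => (Finset.mem_filter.mp (hLW hp)).2
  have hLgt : ∀ p ∈ L, 2 ^ v < p := fun p hp =>
    (Finset.mem_Ioc.mp (Finset.mem_filter.mp (hLW hp)).1).1
  have hLle : ∀ p ∈ L, p ≤ 2 ^ (2 * v) := fun p hp =>
    (Finset.mem_Ioc.mp (Finset.mem_filter.mp (hLW hp)).1).2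
  have h8 : 8 ≤ 2 ^ v := by
    calc 8 = 2 ^ 3 := by norm_num
      _ ≤ 2 ^ v := Nat.pow_le_pow_right (by norm_num) (by omega)
  set N := ∏ p ∈ L, p with hN
  have hNpos : 0 < N := Finset.prod_pos (fun p hp => (hLprime p hp).pos)
  have hN210 : Nat.Coprime N 210 := by
    apply Nat.Coprime.prod_left
    intro p hp
    have hpp := hLprime p hp
    have hgt := hLgt p hp
    have e : (210 : ℕ) = 2 * (3 * (5 * 7)) := by norm_num
    rw [e]
    refine Nat.Coprime.mul_right ?_ (Nat.Coprime.mul_right ?_ (Nat.Coprime.mul_right ?_ ?_))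
    · exact (Nat.coprime_primes hpp Nat.prime_two).mpr (by omega)
    · exact (Nat.coprime_primes hpp Nat.prime_three).mpr (by omega)
    · exact (Nat.coprime_primes hpp Nat.prime_five).mpr (by omega)
    · exact (Nat.coprime_primes hpp (by norm_num)).mpr (by omega)
  have htau : 2 ^ w ≤ N.divisors.card := by
    have h := card_divisors_mul_prod_primes 1 L hLprime (fun p hp h1 =>
      (hLprime p hp).one_lt.ne' (Nat.dvd_one.mp h1))
    rw [one_mul, Nat.divisors_one, Finset.card_singleton, one_mul, hLcard] at h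
    exact h.symm.le
  have hNle : N ≤ (2 ^ (2 * v)) ^ w := by
    rw [← hLcard]
    exact Finset.prod_le_pow_card L (fun p => p) _ hLle
  have hnpos : 0 < 210 * N ^ 2 := Nat.mul_pos (by norm_num) (Nat.pos_of_ne_zero (by positivity))
  have hrep : RepDiv (2 ^ (210 * N ^ 2) * (210 * N ^ 2)) (2 ^ (210 * N ^ 2) + 2 ^ (210 * N ^ 2)) :=
    repDiv_mul_small (repDiv_two_pow (210 * N ^ 2)) hnpos
      ((Nat.lt_two_pow_self).le.trans (Nat.le_succ _))
  exact ⟨2 ^ (210 * N ^ 2) + 2 ^ (210 * N ^ 2), 2 ^ (210 * N ^ 2) * (210 * N ^ 2), N, hrep,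
    Nat.mul_pos (Nat.pos_of_ne_zero (by positivity)) hnpos, dvd_mul_left _ _, hN210, htau, hNle⟩

theorem base_num {j : ℕ} (hj : 2 ≤ j) :
    2 * (32 * j) * (2 ^ j + 2 ^ (32 * j) + 2) < 2 ^ (2 * (32 * j)) := by
  have h := num_supply (j := j) (k := 1) (w := 2 ^ j) hj Nat.one_le_two_pow
    (Nat.pow_le_pow_right (by norm_num) (by omega))
  have hpos : 0 < 2 * (32 * j) := by omega
  have hlt : 2 ^ j + 2 ^ (32 * j) + 2 <
      4 * 1 * 2 ^ (50 * j) * 2 ^ j + 1 + 2 * 2 ^ j + 2 ^ (32 * j) + 2 := by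
    have := Nat.one_le_two_pow (n := j)
    omega
  exact (Nat.mul_lt_mul_of_pos_left hlt hpos).trans_le h

theorem base_state : ∃ T0, TowerState (2 ^ 9) (32 * 9) T0 :=
  base_general (by norm_num) (base_num (by norm_num))

theorem tower_all (T0 : ℕ) (h0 : TowerState (2 ^ 9) (32 * 9) T0) :
    ∀ j, 9 ≤ j → ∃ T, T ≤ T0 + 800 * j ^ 2 ∧ TowerState (2 ^ j) (32 * j) T := by
  intro j hj
  induction j, hj using Nat.le_induction with
  | base => exact ⟨T0, by omega, h0⟩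
  | succ j hj ih =>
    obtain ⟨T, hT, hst⟩ := ih
    refine ⟨T + 8 * 2 ^ Nat.clog 2 (50 * j), ?_, epoch hj hst⟩
    have hpos : 0 < Nat.clog 2 (50 * j) := Nat.clog_pos (by norm_num) (by omega)
    have hlt : 2 ^ (Nat.clog 2 (50 * j)).pred < 50 * j :=
      Nat.pow_pred_clog_lt_self (by norm_num) (by omega)
    have e : 2 ^ Nat.clog 2 (50 * j) = 2 ^ (Nat.clog 2 (50 * j)).pred * 2 := by
      rw [← pow_succ]
      congr 1
      exact (Nat.succ_pred_eq_of_pos hpos).symm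
    nlinarith

/-- the main bound: `N(b) ≤ C (log log b)^2` -/
theorem egypt_loglog_sq : ∃ C : ℝ, ∀ a b : ℕ, 0 < a → a < b →
    ∃ S : Finset ℕ, (∀ n ∈ S, 2 ≤ n) ∧ ∑ n ∈ S, (1 : ℚ) / n = a / b ∧
      (S.card : ℝ) ≤ C * (Real.log (Real.log b)) ^ 2 := by
  obtain ⟨T0, h0⟩ := base_state
  obtain ⟨C, hC⟩ := endgame (2 * T0 + 1600)
  refine ⟨C, ?_⟩
  intro a b ha hab
  have hb2 : 2 ≤ b := by omega
  set u := Nat.clog 2 (Nat.clog 2 b) with hu
  obtain ⟨T, hT, M, N, h1, h2, h3, h4, h5, h6⟩ := tower_all T0 h0 (9 + u) (by omega)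
  have hbM : b ≤ M := by
    have e1 : b ≤ 2 ^ Nat.clog 2 b := Nat.le_pow_clog (by norm_num) b
    have e2 : Nat.clog 2 b ≤ 2 ^ u := Nat.le_pow_clog (by norm_num) _
    have e3 : 2 ^ u ≤ 2 ^ (9 + u) := Nat.pow_le_pow_right (by norm_num) (by omega)
    have e4 : 2 ^ Nat.clog 2 b ≤ 2 ^ (2 ^ (9 + u)) :=
      Nat.pow_le_pow_right (by norm_num) (e2.trans e3)
    have e5 : N.divisors.card ≤ N := Nat.card_divisors_le_self N
    have hNpos : 0 < N := by
      have := Nat.one_le_two_pow (n := 2 ^ (9 + u))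
      omega
    have e6 : N ≤ 210 * N ^ 2 := by nlinarith
    have e7 : 210 * N ^ 2 ≤ M := Nat.le_of_dvd h2 h3
    omega
  obtain ⟨S, hS2, hScard, hSsum⟩ := egypt_of_repDiv h1 ha hab hbM
  refine ⟨S, hS2, hSsum, ?_⟩
  have hCb := hC b hb2
  have hnat : S.card ≤ (2 * T0 + 1600) * (10 + u) ^ 2 := by nlinarith
  calc (S.card : ℝ) ≤ ((2 * T0 + 1600 : ℕ) : ℝ) * ((10 : ℝ) + (u : ℝ)) ^ 2 := by
        exact_mod_cast hnat
    _ ≤ C * (Real.log (Real.log b)) ^ 2 := hCb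

end Vale.Agent.H3
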