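import Vale.Agent.H16.GN2.Field

/-!
# General necessary conditions for subtransitive cyclic quadrilaterals (support for P058)

`gquad lam mu c` is the cyclic quadrilateral whose diagonals cut each other in the ratios
`lam`, `mu` (Vale/Agent/H16/GQ).  From the field form of the obstruction
(`gnw_not_embeds_of_field`, GN2/Field.lean) we derive, for ALL real `lam, mu` in `(0, 1)`:

* `gquad_necessary_embedding`: if the quadrilateral is subtransitive, then no ring homomorphism
  `σ` from the field `ℚ(lam, mu)` to `ℝ` sends exactly one of `lam`, `mu` into `(0, 1)` and the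
  other one outside `[0, 1]`;
* `gquad_algebraic_over_of_embeds`: if the quadrilateral is subtransitive, then `lam` is
  algebraic over `ℚ(mu)` and `mu` is algebraic over `ℚ(lam)`.
-/

namespace Vale.Agent.H3.QuadNec

open Polynomial Vale.Agent.H16.Kite

/-- If the cyclic quadrilateral with diagonal ratios `lam`, `mu` is subtransitive, then no ring
homomorphism from `ℚ(lam, mu)` to `ℝ` sends exactly one of `lam`, `mu` into `(0, 1)` and the
other one outside `[0, 1]`. -/
theorem gquad_necessary_embedding (lam mu c : ℝ) (hl0 : 0 < lam) (hl1 : lam < 1)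
    (hm0 : 0 < mu) (hm1 : mu < 1) (hc : |c| < 1)
    (h : EmbedsInTransitive (gquad lam mu c))
    (σ : IntermediateField.adjoin ℚ ({lam, mu} : Set ℝ) →+* ℝ)
    (hlam : lam ∈ IntermediateField.adjoin ℚ ({lam, mu} : Set ℝ))
    (hmu : mu ∈ IntermediateField.adjoin ℚ ({lam, mu} : Set ℝ)) :
    ¬ ((0 < σ ⟨mu, hmu⟩ ∧ σ ⟨mu, hmu⟩ < 1 ∧ (σ ⟨lam, hlam⟩ < 0 ∨ 1 < σ ⟨lam, hlam⟩)) ∨
      (0 < σ ⟨lam, hlam⟩ ∧ σ ⟨lam, hlam⟩ < 1 ∧ (σ ⟨mu, hmu⟩ < 0 ∨ 1 < σ ⟨mu, hmu⟩))) := by
  intro hbad
  exact gnw_not_embeds_of_field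
    (algebraMap (IntermediateField.adjoin ℚ ({lam, mu} : Set ℝ)) ℝ) σ
    ⟨lam, hlam⟩ ⟨mu, hmu⟩ c hc hbad hl0 hl1 hm0 hm1 h

/-- Auxiliary: the evaluation at a transcendental real number extends to the rational function
field. -/
theorem qng_lift_ok {F : Type*} [Field F] [Algebra F ℝ] (s : ℝ) (hs : Transcendental F s) :
    (nonZeroDivisors F[X]) ≤
      (nonZeroDivisors ℝ).comap ((aeval s : F[X] →ₐ[F] ℝ) : F[X] →+* ℝ) := by
  intro p hp
  rw [Submonoid.mem_comap, mem_nonZeroDivisors_iff_ne_zero]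
  intro h0
  have := (transcendental_iff.mp hs) p h0
  exact (mem_nonZeroDivisors_iff_ne_zero.mp hp) this

/-- Auxiliary: a transcendental number stays transcendental after adding `3`. -/
theorem qng_transc_add {F : Type*} [Field F] [Algebra F ℝ] (s : ℝ) (hs : Transcendental F s) :
    Transcendental F (s + 3) := by
  intro halg
  apply hs
  have h3 : IsAlgebraic F (3 : ℝ) := by
    have : (3 : ℝ) = algebraMap F ℝ 3 := (map_ofNat (algebraMap F ℝ) 3).symm
    rw [this]
    exact isAlgebraic_algebraMap _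
  have := halg.sub h3
  simpa using this

/-- If `lam` is transcendental over a subfield `F` of `ℝ` containing `mu`, the quadrilateral is
not subtransitive. -/
theorem qng_not_embeds_of_transc_lam {F : Type*} [Field F] [Algebra F ℝ] (lam c : ℝ) (m : F)
    (hl0 : 0 < lam) (hl1 : lam < 1) (hm0 : 0 < algebraMap F ℝ m) (hm1 : algebraMap F ℝ m < 1)
    (hc : |c| < 1) (htr : Transcendental F lam) :
    ¬ EmbedsInTransitive (gquad lam (algebraMap F ℝ m) c) := by
  have htr' := qng_transc_add lam htr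
  let ι : RatFunc F →+* ℝ := RatFunc.liftRingHom _ (qng_lift_ok lam htr)
  let ι' : RatFunc F →+* ℝ := RatFunc.liftRingHom _ (qng_lift_ok (lam + 3) htr')
  have e1 : ι RatFunc.X = lam := by
    show RatFunc.liftRingHom _ (qng_lift_ok lam htr) RatFunc.X = lam
    rw [RatFunc.liftRingHom_X]
    simp
  have e2 : ι' RatFunc.X = lam + 3 := by
    show RatFunc.liftRingHom _ (qng_lift_ok (lam + 3) htr') RatFunc.X = lam + 3
    rw [RatFunc.liftRingHom_X]
    simp
  have m1 : ι (RatFunc.C m) = algebraMap F ℝ m := by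
    show RatFunc.liftRingHom _ (qng_lift_ok lam htr) (RatFunc.C m) = algebraMap F ℝ m
    rw [RatFunc.liftRingHom_C]
    simp
  have m2 : ι' (RatFunc.C m) = algebraMap F ℝ m := by
    show RatFunc.liftRingHom _ (qng_lift_ok (lam + 3) htr') (RatFunc.C m) = algebraMap F ℝ m
    rw [RatFunc.liftRingHom_C]
    simp
  have := gnw_not_embeds_of_field ι ι' RatFunc.X (RatFunc.C m) c hc
    (Or.inl ⟨by rw [m2]; exact hm0, by rw [m2]; exact hm1,
      by rw [e2]; exact Or.inr (by linarith)⟩)
    (by rw [e1]; exact hl0) (by rw [e1]; exact hl1) (by rw [m1]; exact hm0)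
    (by rw [m1]; exact hm1)
  rwa [e1, m1] at this

/-- If `mu` is transcendental over a subfield `F` of `ℝ` containing `lam`, the quadrilateral is
not subtransitive. -/
theorem qng_not_embeds_of_transc_mu {F : Type*} [Field F] [Algebra F ℝ] (mu c : ℝ) (l : F)
    (hl0 : 0 < algebraMap F ℝ l) (hl1 : algebraMap F ℝ l < 1) (hm0 : 0 < mu) (hm1 : mu < 1)
    (hc : |c| < 1) (htr : Transcendental F mu) :
    ¬ EmbedsInTransitive (gquad (algebraMap F ℝ l) mu c) := by
  have htr' := qng_transc_add mu htr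
  let ι : RatFunc F →+* ℝ := RatFunc.liftRingHom _ (qng_lift_ok mu htr)
  let ι' : RatFunc F →+* ℝ := RatFunc.liftRingHom _ (qng_lift_ok (mu + 3) htr')
  have e1 : ι RatFunc.X = mu := by
    show RatFunc.liftRingHom _ (qng_lift_ok mu htr) RatFunc.X = mu
    rw [RatFunc.liftRingHom_X]
    simp
  have e2 : ι' RatFunc.X = mu + 3 := by
    show RatFunc.liftRingHom _ (qng_lift_ok (mu + 3) htr') RatFunc.X = mu + 3
    rw [RatFunc.liftRingHom_X]
    simp
  have m1 : ι (RatFunc.C l) = algebraMap F ℝ l := by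
    show RatFunc.liftRingHom _ (qng_lift_ok mu htr) (RatFunc.C l) = algebraMap F ℝ l
    rw [RatFunc.liftRingHom_C]
    simp
  have m2 : ι' (RatFunc.C l) = algebraMap F ℝ l := by
    show RatFunc.liftRingHom _ (qng_lift_ok (mu + 3) htr') (RatFunc.C l) = algebraMap F ℝ l
    rw [RatFunc.liftRingHom_C]
    simp
  have := gnw_not_embeds_of_field ι ι' (RatFunc.C l) RatFunc.X c hc
    (Or.inr ⟨by rw [m2]; exact hl0, by rw [m2]; exact hl1,
      by rw [e2]; exact Or.inr (by linarith)⟩)
    (by rw [m1]; exact hl0) (by rw [m1]; exact hl1) (by rw [e1]; exact hm0)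
    (by rw [e1]; exact hm1)
  rwa [e1, m1] at this

/-- If the cyclic quadrilateral with diagonal ratios `lam`, `mu` is subtransitive, then `lam` is
algebraic over `ℚ(mu)` and `mu` is algebraic over `ℚ(lam)`. -/
theorem gquad_algebraic_over_of_embeds (lam mu c : ℝ) (hl0 : 0 < lam) (hl1 : lam < 1)
    (hm0 : 0 < mu) (hm1 : mu < 1) (hc : |c| < 1)
    (h : EmbedsInTransitive (gquad lam mu c)) :
    IsAlgebraic (IntermediateField.adjoin ℚ ({mu} : Set ℝ)) lam ∧
      IsAlgebraic (IntermediateField.adjoin ℚ ({lam} : Set ℝ)) mu := by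
  constructor
  · by_contra hna
    have hmem : mu ∈ IntermediateField.adjoin ℚ ({mu} : Set ℝ) :=
      IntermediateField.subset_adjoin ℚ _ (Set.mem_singleton mu)
    exact qng_not_embeds_of_transc_lam (F := IntermediateField.adjoin ℚ ({mu} : Set ℝ))
      lam c ⟨mu, hmem⟩ hl0 hl1 hm0 hm1 hc hna h
  · by_contra hna
    have hmem : lam ∈ IntermediateField.adjoin ℚ ({lam} : Set ℝ) :=
      IntermediateField.subset_adjoin ℚ _ (Set.mem_singleton lam)
    exact qng_not_embeds_of_transc_mu (F := IntermediateField.adjoin ℚ ({lam} : Set ℝ))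
      mu c ⟨lam, hmem⟩ hl0 hl1 hm0 hm1 hc hna h

end Vale.Agent.H3.QuadNec
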